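import Vale.Agent.P113.Main
import Vale.Agent.P113.Force
import Vale.Agent.P113.CompilePrim

open Set
open scoped ContDiff

namespace Vale.Agent.Results.P113.Full

open Vale.Agent.P113

theorem result :
    ∃ (a lo hi : Fin 3 → ℚ) (C : MachineCode × List ℕ → Fin 3 → List Term),
      (∀ i, lo i < hi i) ∧ IsForceCompiler C ∧
      ∀ ν : ℝ, 0 < ν → ∀ (M : Machine) (w : List (Fin (M.k + 1))),
        ∃ (u : ℝ → V → V) (p : ℝ → V → ℝ),
          ContDiffOn ℝ ∞ (fun z : ℝ × V => u z.1 z.2) (Ici 0 ×ˢ univ) ∧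
          ContDiffOn ℝ ∞ (fun z : ℝ × V => p z.1 z.2) (Ici 0 ×ˢ univ) ∧
          (∀ T, 0 < T → IsClassical ν (force (C (M.code, w.map Fin.val)) ν) T u p) ∧
          (∀ T, 0 < T → ∀ v q, IsClassical ν (force (C (M.code, w.map Fin.val)) ν) T v q →
            ∀ t ∈ Icc 0 T, ∀ x, v t x = u t x ∧ q t x = p t x) ∧
          ∃ X : ℝ → V, IsTrajectory u (fun i => a i) X ∧
            (∀ Y, IsTrajectory u (fun i => a i) Y → ∀ t, 0 ≤ t → Y t = X t) ∧
            ((∃ t, 0 ≤ t ∧ X t ∈ boxImage lo hi) ↔ M.Halts w) :=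
  final_of compileComputable_proof compileRest_proof force_proof

end Vale.Agent.Results.P113.Full
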